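import Crest.Agent.X212.Flo2.Plc
import Crest.Agent.X212.Pb50.Pt

/-!
# Row 212, LV-FC (helper40): faces and their models have the same solutions
-/

set_option autoImplicit false
set_option linter.unusedSectionVars false
noncomputable section
open scoped Manifold ContDiff Topology InnerProductSpace
open MeasureTheory Set Function Filter

namespace Crest.Agent.X212.Lvf40
open An Cyf70 Sw Flo2
open M (Mf)

variable {κ lam ν : Type} [Fintype κ] [Fintype lam] [Fintype ν] [DecidableEq ν]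

/-- a function on a cross-section of an equal type -/
def rg {a a' : Ty κ lam ν} (h : a = a') (f : a.en.Y.M → ℂ) : a'.en.Y.M → ℂ := h ▸ f

theorem rt_ind {X : Mf 4} {nc : ℕ} {b : Bg X.I X.M κ lam ν nc}
    (Q : ∀ a : Ty κ lam ν, Nk a.en b → (a.en.Y.M → ℂ) → Prop) {a a' : Ty κ lam ν} (h : a = a')
    {K : Nk a.en b} {f : a.en.Y.M → ℂ} (k : Q a K f) : Q a' (rt h K) (rg h f) := by
  subst h; exact k

theorem rg_gau {a a' : Ty κ lam ν} (h : a = a') {f : a.en.Y.M → ℂ} (k : Gau a.en.Y.I f) :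
    Gau a'.en.Y.I (rg h f) := by
  subst h; exact k

theorem rg_pow {a a' : Ty κ lam ν} (h : a = a') (n : ℤ) :
    rg h (fun y => a.1.u y ^ n) = fun y => a'.1.u y ^ n := by
  subst h; rfl

variable {𝓔 : Type} [Fintype 𝓔] {ty : 𝓔 → Ty κ lam ν} {Sl : Type} [Fintype Sl] (l : Lv 𝓔)

theorem cor_lev {X X' : Mf 4} {nc nc' : ℕ} {b : Bg X.I X.M κ lam ν nc} {b' : Bg X'.I X'.M κ lam ν nc'}
    {ε ε' : 𝓔} (h' : ε' = ε) {a a' : Ty κ lam ν} (e : a = ty ε) (e' : a' = ty ε') (h : a' = a)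
    {K : Nk a.en b} {K' : Nk a'.en b'} {φ δ} (k : K.Cor (h ▸ K' : Nk a.en b') φ δ) :
    ((rt e K).re l.w (bm l.μ) (l.S ε) (l.ψ ε)).Cor (h' ▸ ((rt e' K').re l.w (bm l.μ) (l.S ε') (l.ψ ε') :
      Nk (l.e ty ε') { b' with w := l.w }) : Nk (l.e ty ε) { b' with w := l.w }) φ δ := by
  subst h' e e'
  exact k

section plc
variable {g : Gc κ lam ν} (p : Plc ty Sl g) {nc : ℕ} (P : Pz g.X nc fun i => (g.ty i).en)

theorem mem_lev {i : g.N} {K} (h : K ∈ (p.lev l P).nk (p.ι i)) :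
    ∃ K₀ ∈ P.nk i, K = (rt (p.ty i).symm K₀).re _ _ _ _ := by
  rw [p.lev_nk] at h
  obtain ⟨K₀, h, e⟩ := Option.mem_map.1 h
  exact ⟨K₀, h, e.symm⟩

theorem lev_mem {i : g.N} {K} (h : K ∈ P.nk i) :
    (rt (p.ty i).symm K).re _ _ _ _ ∈ (p.lev l P).nk (p.ι i) := by
  rw [p.lev_nk]
  exact Option.mem_map.2 ⟨K, h, rfl⟩

theorem lev_off (i : g.N) : (p.lev l P).Off (p.ι i) ↔ P.Off i := by
  refine ⟨fun h K hK => ?_, fun h K hK => ?_⟩
  · have := h _ (lev_mem l p P hK)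
    rwa [← rt_p (p.ty i).symm K, ← rt_q (p.ty i).symm K]
  · obtain ⟨K₀, h₀, rfl⟩ := mem_lev l p P hK
    have := h K₀ h₀
    rwa [← rt_p (p.ty i).symm K₀, ← rt_q (p.ty i).symm K₀] at this

theorem off_or (j : 𝓔 × Sl) : (p.lev l P).Off j ∨ ∃ i, p.ι i = j :=
  (em _).symm.imp_left fun h K hK => by
    rw [p.lev_none P l fun i e => h ⟨i, e⟩] at hK
    cases hK

open Classical in
/-- functions on the cross-sections in slots -/
def gam (γ : ∀ i, (g.ty i).en.Y.M → ℂ) (j : 𝓔 × Sl) : (ty j.1).en.Y.M → ℂ :=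
  if h : ∃ i, p.ι i = j then rg ((p.ty _).symm.trans
    (congrArg (fun j : 𝓔 × Sl => ty j.1) h.choose_spec)) (γ h.choose) else fun _ => 1

theorem gam_ι (γ : ∀ i, (g.ty i).en.Y.M → ℂ) (i : g.N) :
    gam p γ (p.ι i) = rg (p.ty i).symm (γ i) := by
  have h : ∃ j, p.ι j = p.ι i := ⟨i, rfl⟩
  have : ∀ j (e : p.ι j = p.ι i), rg ((p.ty _).symm.trans
      (congrArg (fun j : 𝓔 × Sl => ty j.1) e)) (γ j) = rg (p.ty i).symm (γ i) := fun j e => by
    obtain rfl := p.inj e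
    rfl
  exact (dif_pos h).trans (this _ h.choose_spec)

end plc

variable {g g' : Gc κ lam ν} (p : Plc ty Sl g) (p' : Plc ty Sl g') {r : g'.N → g.N → Prop}

/-- the relation of the slots -/
def Rl (r : g'.N → g.N → Prop) (j j' : 𝓔 × Sl) : Prop := ∃ i i', r i i' ∧ p'.ι i = j ∧ p.ι i' = j'

theorem rl_ty (hi : Injective ty) (hr : ∀ i i', r i i' → g'.ty i = g.ty i') {j j' : 𝓔 × Sl}
    (h : Rl p p' r j j') : j.1 = j'.1 := by
  obtain ⟨i, i', h, rfl, rfl⟩ := h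
  exact hi (by rw [p'.ty, p.ty, hr _ _ h])

theorem biso {W : Type} (yt : l.YT ty W) (hi : Injective ty) (hr : ∀ i i', r i i' → g'.ty i = g.ty i')
    {nc : ℕ} {P : Pz g.X nc fun i => (g.ty i).en} {P' : Pz g'.X nc fun i => (g'.ty i).en}
    {φ γ U u α} (h : BIso (en := Ty.en) (ty := g'.ty) (ty' := g.ty) P' P φ r γ U u α) :
    BIso (en := (l.dt ty yt).e) (ty := Prod.fst) (ty' := Prod.fst) (p'.lev l P') (p.lev l P) φ
      (Rl p p' r) (gam p' γ) U u α where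
  src := h.src
  tgt := h.tgt
  iso := { h.iso with w := rfl }
  Ξ := h.Ξ
  ρ := h.ρ
  η := h.η
  nc j j' k := by
    have e := rl_ty p p' hi hr k
    obtain ⟨i, i', k, rfl, rfl⟩ := k
    refine (h.nc i i' k).imp fun δ H => H.imp (fun H =>
      ⟨(lev_off l p' P' i).2 H.1, (lev_off l p P i').2 H.2⟩) fun ⟨e', K, hK, K', hK', H⟩ =>
      ⟨e.symm, _, lev_mem l p' P' hK, _, lev_mem l p P hK', cor_lev l e.symm _ _ e' H⟩
  inj := by
    rintro _ _ _ _ ⟨i, i', k, rfl, rfl⟩ ⟨j, j', k', rfl, rfl⟩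
    rw [p.inj.eq_iff, p'.inj.eq_iff, h.inj _ _ _ _ k k']
  l j := (off_or l p' P' j).elim .inl (by
    rintro ⟨i, rfl⟩
    exact (h.l i).imp (lev_off l p' P' i).2 fun ⟨i', k⟩ => ⟨_, i, i', k, rfl, rfl⟩)
  r' j := (off_or l p P j).elim .inl (by
    rintro ⟨i', rfl⟩
    exact (h.r' i').imp (lev_off l p P i').2 fun ⟨i, k⟩ => ⟨_, i, i', k, rfl, rfl⟩)
  gau j := by
    unfold gam
    split_ifs
    exacts [rg_gau _ (h.gau _), ⟨contMDiff_const, fun _ => norm_one⟩]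
  U j k K hK := by
    obtain ⟨i, rfl⟩ := (off_or l p' P' j).resolve_left k
    obtain ⟨K₀, h₀, rfl⟩ := mem_lev l p' P' hK
    exact rt_ind (fun a K _ => ∀ x ∈ K.ψ.source, ∀ a a', U (K.ψ x) a a' = P'.bg.B.P a a' (K.ψ x))
      (p'.ty i).symm (f := γ i) (h.U i (mt (lev_off l p' P' i).2 k) K₀ h₀)
  u j k K hK := by
    obtain ⟨i, rfl⟩ := (off_or l p' P' j).resolve_left k
    obtain ⟨K₀, h₀, rfl⟩ := mem_lev l p' P' hK
    rw [gam_ι]
    exact rt_ind (fun a K f => ∀ x ∈ K.ψ.source, ∀ v,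
      u (K.ψ x) v = cs P'.bg.m.J (f x.1) (P'.bg.m.p (K.ψ x) v))
      (p'.ty i).symm (h.u i (mt (lev_off l p' P' i).2 k) K₀ h₀)

theorem port (hu : ∀ ε, Gau (ty ε).1.Y.I (ty ε).1.u) (he : ∀ ε, (l.e ty ε).OK) {β β' o b m i i' ε s s'}
    (hr : ∀ j, r i j → j = i') (ho : Option.Rel r (some i) o) (h : p'.ι i = (ε, s))
    (h' : p.ι i' = (ε, s')) (k : p'.pv l β' (some i) b 0 = p.pv l β o b m)
    {γ : ∀ i, (g'.ty i).en.Y.M → ℂ} (hγ : γ i = fun y => (g'.en i).u y ^ (-m)) :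
    β (ε, s') b = En3.YC.act (e := l.e ty ε) (gam p' γ (ε, s)) (β' (ε, s) b) := by
  cases ho with | some ho =>
  obtain rfl := hr _ ho
  have e := (gam_ι p' γ i).trans ((congrArg _ hγ).trans (rg_pow _ _))
  simp only [Plc.pv, Option.map_some, Option.some.injEq] at k
  rw [h, h'] at k
  rw [h] at e
  have k' := eq_of_heq (Sigma.mk.inj k).2
  simp only [zpow_zero, act_one] at k'
  rw [e, k']
  refine ((act_zpow (he ε) (hu ε) m (-m) _).trans ?_).symm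
  simp only [add_neg_cancel, zpow_zero, act_one]

/-- **LV-FC** -/
theorem fc (hN : ∀ (d : Dt κ lam ν) [Fintype d.𝓔] (Sl : Type) [Fintype Sl], NatStmt d Sl)
    (hL : LevStmt κ lam ν) : FcStmt κ lam ν := by
  rintro g g' D ι φ n W τ τ' hg hg' hτ hτ' ⟨h, r, hr, r1, r2, r3, H⟩ 𝓔 _ ty Sl _ p p' l yt hi hu he
    hw β β' cr k1 k2 k3 t ht
  obtain ⟨γ, U, u, α, hγ, iso, hT⟩ := H t ht
  have o := (hL g hg 𝓔 ty Sl p l W yt τ he hw hτ).ok t trivial
  have O' := hL g' hg' 𝓔 ty Sl p' l W yt τ' he hw hτ'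
  have I := Pb50.inf_iff O' (t := t ∘ ι) trivial
  have key : ∀ nc (h : nc = g'.nc) (P : Pz g.X nc fun i => (g.ty i).en) (η : W → Fin nc → _),
      Pc.OK (d := l.dt ty yt) ⟨p.lev l P, fun w => τ.fo w t, η⟩ →
      BIso (en := Ty.en) (ty := g'.ty) (ty' := g.ty) (g'.P (t ∘ ι)) (h ▸ P) φ r γ U u α →
      (∀ w, TI0 (g'.P (t ∘ ι)).bg φ U u α (τ'.fo w (t ∘ ι)) (τ'.η w (t ∘ ι)) (τ.fo w t)
        fun j => η w (j.cast h.symm)) → SameS (d := l.dt ty yt) ((p'.fam l yt τ').P (t ∘ ι))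
          ⟨p.lev l P, fun w => τ.fo w t, η⟩ β' β := by
    rintro _ rfl P η o iso hT
    refine hN (l.dt ty yt) Sl _ _ _ _ _ (O'.ok _ trivial) o φ _ _ U u α
      (biso l p p' yt hi hr iso) (fun _ _ => rl_ty p p' hi hr) hT β' β
      (fun j b k => cr j b ((I j b).1 k)) ?_
    rintro ε s s' b ⟨i, i', k, e, e'⟩ hI
    obtain ⟨j, ej, hj⟩ := (p'.lev_inf g'.s l _ b).1 ((I _ b).1 hI)
    obtain rfl := p'.inj (ej.trans e.symm)
    have q : ∀ a, r j a → a = i' := fun a ha => (iso.inj _ _ _ _ ha k).1 rfl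
    have z := hγ j fun h => by obtain ⟨K, hK, -⟩ := hj; rw [h] at hK; cases hK
    cases b with
    | false =>
      have m := (hg'.inn j).1 hj
      exact port l p p' hu he q (m ▸ r1) e e' (m ▸ k1) (z.trans (funext fun y => if_pos m))
    | true =>
      have m := (hg'.out j).1 hj
      have z' : γ j = fun y => (g'.en j).u y ^ (-0 : ℤ) := z.trans (funext fun y =>
        (if_neg fun a => m.elim (hg'.cyl j a).1 (hg'.cyl j a).2).trans (by simp))
      exact m.elim (fun m => port l p p' hu he q (m ▸ r2) e e' (m ▸ k2) z')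
        fun m => port l p p' hu he q (m ▸ r3) e e' (m ▸ k3) z'
  exact key _ h _ _ o iso hT

end Crest.Agent.X212.Lvf40
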